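import Vale.Agent.P216.Q633.Quat
import Vale.Agent.P216.LS.Maps
import Vale.Agent.P216.MV337.Sys

/-!
# P216, three dimensional sphere, block [GOM]: the straight line homotopy

Two maps into `Y s` which are `1/2`-close are homotopic in `Y (4 s)`, through based loops.
-/

set_option linter.all false

open Set Filter Topology Quaternion

namespace Vale.Agent.P216.H779C

open L250 GM Q633

open Classical in
/-- normalisation of quaternions -/
noncomputable def nz (v : ℍ[ℝ]) : S3 :=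
  if h : v = 0 then 1 else ⟨‖v‖⁻¹ • v, by
    rw [mem_sphere_zero_iff_norm, norm_smul, norm_inv, norm_norm,
      inv_mul_cancel₀ (norm_ne_zero_iff.2 h)]⟩

theorem coe_nz {v : ℍ[ℝ]} (h : v ≠ 0) : ((nz v : S3) : ℍ[ℝ]) = ‖v‖⁻¹ • v := by
  rw [nz, dif_neg h]

theorem nz_coe (x : S3) : nz (x : ℍ[ℝ]) = x := by
  have h1 : (x : ℍ[ℝ]) ≠ 0 := norm_ne_zero_iff.1 (by rw [norm_S3]; exact one_ne_zero)
  apply Subtype.ext
  rw [coe_nz h1, norm_S3, inv_one, one_smul]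

theorem ne_zero_of_half {v : ℍ[ℝ]} (h : 1 / 2 ≤ ‖v‖) : v ≠ 0 :=
  norm_ne_zero_iff.1 (by linarith : (0 : ℝ) < ‖v‖).ne'

theorem dist_nz_le {v w : ℍ[ℝ]} (hv : 1 / 2 ≤ ‖v‖) (hw : 1 / 2 ≤ ‖w‖) :
    dist (nz v) (nz w) ≤ 4 * dist v w := by
  have hv0 : (0 : ℝ) < ‖v‖ := by linarith
  have hw0 : (0 : ℝ) < ‖w‖ := by linarith
  rw [Subtype.dist_eq, coe_nz (ne_zero_of_half hv), coe_nz (ne_zero_of_half hw), dist_eq_norm,
    dist_eq_norm]
  have e : ‖v‖⁻¹ • v - ‖w‖⁻¹ • w = ‖v‖⁻¹ • (v - w) + (‖v‖⁻¹ - ‖w‖⁻¹) • w := by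
    rw [smul_sub, sub_smul]
    abel
  have h1 : ‖(‖v‖⁻¹ - ‖w‖⁻¹) • w‖ ≤ ‖v‖⁻¹ * ‖v - w‖ := by
    have h2 : (‖v‖⁻¹ - ‖w‖⁻¹) * ‖w‖ = ‖v‖⁻¹ * (‖w‖ - ‖v‖) := by
      field_simp
    have h3 : |‖w‖ - ‖v‖| ≤ ‖v - w‖ := by
      rw [abs_sub_comm]
      exact abs_norm_sub_norm_le v w
    calc ‖(‖v‖⁻¹ - ‖w‖⁻¹) • w‖ = |(‖v‖⁻¹ - ‖w‖⁻¹) * ‖w‖| := by
          rw [norm_smul, Real.norm_eq_abs, abs_mul, abs_of_pos hw0]
      _ = ‖v‖⁻¹ * |‖w‖ - ‖v‖| := by
          rw [h2, abs_mul, abs_of_pos (inv_pos.2 hv0)]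
      _ ≤ _ := mul_le_mul_of_nonneg_left h3 (inv_pos.2 hv0).le
  have h4 : ‖‖v‖⁻¹ • (v - w)‖ = ‖v‖⁻¹ * ‖v - w‖ := by
    rw [norm_smul, norm_inv, norm_norm]
  have h5 : ‖v‖⁻¹ ≤ 2 := by
    rw [inv_le_comm₀ hv0 two_pos]
    linarith
  rw [e]
  calc _ ≤ ‖v‖⁻¹ * ‖v - w‖ + ‖v‖⁻¹ * ‖v - w‖ := (norm_add_le _ _).trans (add_le_add h4.le h1)
    _ ≤ 2 * ‖v - w‖ + 2 * ‖v - w‖ := by
        have := mul_le_mul_of_nonneg_right h5 (norm_nonneg (v - w))
        linarith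
    _ = 4 * ‖v - w‖ := by ring

/-- the segment in the quaternions -/
noncomputable def sg (τ : ℝ) (x y : S3) : ℍ[ℝ] := (1 - τ) • (x : ℍ[ℝ]) + τ • (y : ℍ[ℝ])

theorem sg_zero (x y : S3) : sg 0 x y = x := by rw [sg, sub_zero, one_smul, zero_smul, add_zero]

theorem sg_one (x y : S3) : sg 1 x y = y := by rw [sg, sub_self, zero_smul, one_smul, zero_add]

theorem sg_self (τ : ℝ) (x : S3) : sg τ x x = x := by rw [sg, ← add_smul, sub_add_cancel, one_smul]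

theorem half_le_sg {τ : ℝ} (hτ : τ ∈ Icc (0 : ℝ) 1) {x y : S3} (h : dist x y ≤ 1 / 2) :
    1 / 2 ≤ ‖sg τ x y‖ := by
  have e : (x : ℍ[ℝ]) = sg τ x y + τ • ((x : ℍ[ℝ]) - y) := by
    rw [sg, smul_sub, sub_smul, one_smul]
    abel
  have h1 : ‖(x : ℍ[ℝ])‖ ≤ ‖sg τ x y‖ + ‖τ • ((x : ℍ[ℝ]) - y)‖ := by
    conv_lhs => rw [e]
    exact norm_add_le _ _
  rw [norm_S3, norm_smul, Real.norm_eq_abs, abs_of_nonneg hτ.1, ← dist_eq_norm] at h1
  rw [Subtype.dist_eq] at h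
  have h2 : τ * dist (x : ℍ[ℝ]) (y : ℍ[ℝ]) ≤ 1 * (1 / 2) :=
    mul_le_mul hτ.2 h dist_nonneg zero_le_one
  linarith

theorem dist_sg_le {τ : ℝ} (hτ : τ ∈ Icc (0 : ℝ) 1) (x y x' y' : S3) :
    dist (sg τ x y) (sg τ x' y') ≤ (1 - τ) * dist x x' + τ * dist y y' := by
  have e : sg τ x y - sg τ x' y' = (1 - τ) • ((x : ℍ[ℝ]) - x') + τ • ((y : ℍ[ℝ]) - y') := by
    rw [sg, sg, smul_sub, smul_sub]
    abel
  rw [dist_eq_norm, e]
  refine (norm_add_le _ _).trans_eq ?_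
  rw [norm_smul, norm_smul, Real.norm_eq_abs, Real.norm_eq_abs, abs_of_nonneg hτ.1,
    abs_of_nonneg (sub_nonneg.2 hτ.2), ← dist_eq_norm, ← dist_eq_norm, Subtype.dist_eq,
    Subtype.dist_eq]

theorem continuous_sg {X : Type*} [TopologicalSpace X] {S : Set X} {τ : X → ℝ} {f g : X → S3}
    (hτ : ContinuousOn τ S) (hf : ContinuousOn f S) (hg : ContinuousOn g S) :
    ContinuousOn (fun x => sg (τ x) (f x) (g x)) S :=
  ((continuousOn_const.sub hτ).smul (continuous_subtype_val.comp_continuousOn hf)).add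
    (hτ.smul (continuous_subtype_val.comp_continuousOn hg))

theorem continuousOn_nz : ContinuousOn nz {v : ℍ[ℝ] | 1 / 2 ≤ ‖v‖} := by
  refine Metric.continuousOn_iff.2 fun v hv ε hε => ⟨ε / 4, by positivity, fun w hw h => ?_⟩
  refine (dist_nz_le hw hv).trans_lt ?_
  linarith

open Classical in
/-- the straight line between two based loops -/
noncomputable def line (τ : ℝ) (w v : EY) : EY :=
  if h : Continuous (fun t : AddCircle (1 : ℝ) => nz (sg τ (w.1 t) (v.1 t))) then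
    ⟨⟨_, h⟩, by
      change nz (sg τ (fn w.1 0) (fn v.1 0)) = 1
      rw [w.2, v.2, sg_self, nz_coe]⟩
  else w

/-- `1/2`-close loops -/
def Cl (w v : EY) : Prop := ∀ t, dist (fn w.1 t) (fn v.1 t) ≤ 1 / 2

theorem fn_line {τ : ℝ} (hτ : τ ∈ Icc (0 : ℝ) 1) {w v : EY} (h : Cl w v) (t : ℝ) :
    fn (line τ w v).1 t = nz (sg τ (fn w.1 t) (fn v.1 t)) := by
  have hc : Continuous (fun t : AddCircle (1 : ℝ) => nz (sg τ (w.1 t) (v.1 t))) := by
    rw [← continuousOn_univ]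
    refine continuousOn_nz.comp (continuous_sg continuousOn_const w.1.continuous.continuousOn
      v.1.continuous.continuousOn) fun x _ => ?_
    induction x using QuotientAddGroup.induction_on with
    | H t => exact half_le_sg hτ (h t)
  rw [line, dif_pos hc]
  rfl

theorem line_zero {w v : EY} (h : Cl w v) : line 0 w v = w := ext_EY fun t => by
  rw [fn_line ⟨le_rfl, zero_le_one⟩ h, sg_zero, nz_coe]

theorem line_one {w v : EY} (h : Cl w v) : line 1 w v = v := ext_EY fun t => by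
  rw [fn_line ⟨zero_le_one, le_rfl⟩ h, sg_one, nz_coe]

/-- the energy of the line -/
theorem line_mem {τ : ℝ} (hτ : τ ∈ Icc (0 : ℝ) 1) {w v : EY} (h : Cl w v) {s : ℝ} (hw : w ∈ Y s)
    (hv : v ∈ Y s) : line τ w v ∈ Y (4 * s) := by
  obtain ⟨e, h1, h2⟩ := (show HasE (fn w.1) (max s 0 ^ 2) from hw)
  obtain ⟨e', h1', h2'⟩ := (show HasE (fn v.1) (max s 0 ^ 2) from hv)
  have h4 : max (4 * s) 0 = 4 * max s 0 := by
    rw [mul_max_of_nonneg _ _ (by norm_num : (0 : ℝ) ≤ 4), mul_zero]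
  change HasE (fn (line τ w v).1) (max (4 * s) 0 ^ 2)
  rw [h4]
  refine ⟨fun t => 16 * ((1 - τ) * e t + τ * e' t), fun a b hab => ?_, fun t => ?_⟩
  · have ha := h1 a b hab
    have hb := h1' a b hab
    rw [fn_line hτ h, fn_line hτ h]
    have h5 : dist (nz (sg τ (fn w.1 a) (fn v.1 a))) (nz (sg τ (fn w.1 b) (fn v.1 b))) ≤
        4 * ((1 - τ) * dist (fn w.1 a) (fn w.1 b) + τ * dist (fn v.1 a) (fn v.1 b)) :=
      (dist_nz_le (half_le_sg hτ (h a)) (half_le_sg hτ (h b))).trans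
        (mul_le_mul_of_nonneg_left (dist_sg_le hτ _ _ _ _) (by norm_num))
    have h6 := pow_le_pow_left₀ dist_nonneg h5 2
    have h7 : ((1 - τ) * dist (fn w.1 a) (fn w.1 b) + τ * dist (fn v.1 a) (fn v.1 b)) ^ 2 ≤
        (1 - τ) * dist (fn w.1 a) (fn w.1 b) ^ 2 + τ * dist (fn v.1 a) (fn v.1 b) ^ 2 := by
      have h8 : 0 ≤ (1 - τ) * τ * (dist (fn w.1 a) (fn w.1 b) - dist (fn v.1 a) (fn v.1 b)) ^ 2 :=
        mul_nonneg (mul_nonneg (sub_nonneg.2 hτ.2) hτ.1) (sq_nonneg _)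
      nlinarith
    have h9 := mul_le_mul_of_nonneg_left ha (sub_nonneg.2 hτ.2)
    have h10 := mul_le_mul_of_nonneg_left hb hτ.1
    calc _ ≤ _ := h6
      _ = 16 * ((1 - τ) * dist (fn w.1 a) (fn w.1 b) + τ * dist (fn v.1 a) (fn v.1 b)) ^ 2 := by
        ring
      _ ≤ 16 * ((1 - τ) * dist (fn w.1 a) (fn w.1 b) ^ 2 +
          τ * dist (fn v.1 a) (fn v.1 b) ^ 2) := mul_le_mul_of_nonneg_left h7 (by norm_num)
      _ ≤ 16 * ((1 - τ) * ((b - a) * (e b - e a)) + τ * ((b - a) * (e' b - e' a))) :=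
        mul_le_mul_of_nonneg_left (add_le_add h9 h10) (by norm_num)
      _ = _ := by ring
  · change 16 * ((1 - τ) * e (t + 1) + τ * e' (t + 1)) = _
    rw [h2, h2']
    ring

/-- **The straight line homotopy.** -/
theorem hp_line {E : Type} [PseudoMetricSpace E] {A : Set E} (hA : IsCompact A) {W V : E → EY}
    {s : ℝ} (hW : ContinuousOn W A) (hV : ContinuousOn V A) (hWm : ∀ a ∈ A, W a ∈ Y s)
    (hVm : ∀ a ∈ A, V a ∈ Y s) (h : ∀ a ∈ A, Cl (W a) (V a)) :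
    H901.Hp A ∅ (Y (4 * s)) ∅ W V := by
  refine MV337.hp_of_cont hA (F := fun p => line p.1 (W p.2) (V p.2)) ?_
    (fun τ hτ a ha => line_mem hτ (h a ha) (hWm a ha) (hVm a ha)) (fun _ _ _ hx => hx.elim)
    (fun a ha => line_zero (h a ha)) fun a ha => line_one (h a ha)
  refine (Topology.IsInducing.subtypeVal (t := {w : LM S3 | fn w 0 = 1})).continuousOn_iff.2 ?_
  refine LS.continuousOn_of_pointwise (s := max (4 * s) 0) (le_max_right _ _)
    (fun p hp => line_mem hp.1 (h _ hp.2) (hWm _ hp.2) (hVm _ hp.2)) fun t => ?_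
  have he : ContinuousOn (fun p : ℝ × E => nz (sg p.1 (fn (W p.2).1 t) (fn (V p.2).1 t)))
      (Icc (0 : ℝ) 1 ×ˢ A) := by
    have h1 : ∀ {U : E → EY}, ContinuousOn U A →
        ContinuousOn (fun p : ℝ × E => fn (U p.2).1 t) (Icc (0 : ℝ) 1 ×ˢ A) := fun {U} hU =>
      ((ContinuousEvalConst.continuous_eval_const (t : AddCircle (1 : ℝ))).comp
        continuous_subtype_val).comp_continuousOn (hU.comp continuousOn_snd fun p hp => hp.2)
    exact continuousOn_nz.comp (continuous_sg continuousOn_fst (h1 hW) (h1 hV))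
      fun p hp => half_le_sg hp.1 (h _ hp.2 t)
  exact he.congr fun p hp => fn_line hp.1 (h _ hp.2) t

end Vale.Agent.P216.H779C
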