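import Vale.Agent.P216.H779C.Poly
import Vale.Agent.P216.H779C.Line
import Vale.Agent.P216.H894.MooreGnat
import Vale.Agent.P216.B64.Contract
import Vale.Agent.P216.H901.Fam

/-!
# P216, three dimensional sphere, block [GOM], part (G1)

`Y s → P x₀ x₀ T → XL M T → Y (K T)` (polygons, `gM`, `qm f`) is homotopic to the inclusion in
`Y s'`. Hence (G0): restriction `Y s' → Y s` factors through the cohomology of `P x₀ x₀ T`, and
(G1): the odd cohomology of the family `Y` is ephemeral.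
-/

set_option linter.all false

open Set Filter Topology BoundedContinuousFunction Quaternion

namespace Vale.Agent.P216.H779C

open PS L250 GM Q633 AS B64
open Vale.Agent.P216.LS (UniqSeg)
open Vale.Agent.P216.H901 (Hp)

variable {M : Type} [MetricSpace M] [CompactSpace M] {ρ : ℝ} {x₀ : M}

/-- `gM` on based Moore loops -/
theorem umap_gM {T : ℝ} (hT : 0 < T) : UMap (P x₀ x₀ T) (XL M T) (MR.gM T) :=
  MV337.map_of_cont (isCompact_P _ _ _)
    ((MR.continuousOn_gM hT).mono MV337.P_subset_FL) fun w hw => by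
      rw [GM.XL_eq hT.le]
      exact MR.gM_mem hT.le (MV337.P_subset_FL hw)

/-- the approximation data: `f` is `K`-Lipschitz and `ε₀`-close to `h` -/
theorem exists_close (hρ : 0 < ρ) (hU : UniqSeg M ρ) (h : M ≃ₜ S3) (hx : h x₀ = 1) :
    ∃ ε₀ > 0, ∀ (f : C(M, S3)), (∀ x, dist (f x) (h x) ≤ ε₀) → ∀ s : ℝ, ∃ T > 0,
      ∃ A : EY → (ℝ →ᵇ M), UMap (Y s) (P x₀ x₀ T) A ∧ ContinuousOn A (Y s) ∧
        ∀ w ∈ Y s, Cl w (qm f (MR.gM T (A w))) := by
  have hc : UniformContinuous h := CompactSpace.uniformContinuous_of_continuous h.continuous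
  rw [Metric.uniformContinuous_iff] at hc
  obtain ⟨δ, hδ, hc⟩ := hc (1 / 16) (by norm_num)
  obtain ⟨η, hη, hηρ, hηδ⟩ : ∃ η > 0, η < ρ ∧ 2 * η < δ :=
    ⟨min ρ δ / 4, by positivity, by linarith [min_le_left ρ δ, lt_min hρ hδ],
      by linarith [min_le_right ρ δ, lt_min hρ hδ]⟩
  refine ⟨1 / 16, by norm_num, fun f hf s => ?_⟩
  obtain ⟨N, hN, h1⟩ := exists_poly hU h hx hη hηρ s
  obtain ⟨hA, hm, hd⟩ := h1 N le_rfl
  have hN' : (0 : ℝ) < N := by exact_mod_cast hN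
  have hT : 0 < N * η := by positivity
  refine ⟨N * η, hT, PA h η N, MV337.map_of_cont (isCompact_Y s) hA hm, hA, fun w hw t => ?_⟩
  have hP := MV337.P_subset_FL (hm w hw)
  -- reduce to `[0, 1)`
  have red : ∀ g : EY, fn g.1 t = fn g.1 (Int.fract t) := by
    intro g
    have := (fn_periodic g.1).sub_zsmul_eq (x := t) ⌊t⌋
    rw [zsmul_eq_mul, mul_one] at this
    exact this.symm
  rw [red, red]
  have hr : Int.fract t ∈ Icc (0 : ℝ) 1 := ⟨Int.fract_nonneg t, (Int.fract_lt_one t).le⟩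
  rw [fn_qm, MR.fn_gM_Icc hT.le hP ⟨le_rfl, zero_le_one⟩, MR.fn_gM_Icc hT.le hP hr, mul_zero]
  have h0 : PA h η N w 0 = x₀ := (hm w hw).2.1 0 le_rfl
  rw [h0]
  have h3 := hd w hw _ hr
  have h4 : dist (f x₀) 1 ≤ 1 / 16 := by
    have := hf x₀
    rwa [hx] at this
  have h5 : dist (h (PA h η N w (N * η * Int.fract t))) (fn w.1 (Int.fract t)) ≤ 1 / 16 := by
    have := hc (h3.trans_lt hηδ)
    rw [h.apply_symm_apply] at this
    exact this.le
  have h6 := hf (PA h η N w (N * η * Int.fract t))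
  have h7 : dist (1⁻¹ * fn w.1 (Int.fract t))
      ((f x₀)⁻¹ * f (PA h η N w (N * η * Int.fract t))) ≤
      dist 1 (f x₀) + dist (fn w.1 (Int.fract t)) (f (PA h η N w (N * η * Int.fract t))) :=
    dist_div_le _ _ _ _
  rw [inv_one, one_mul] at h7
  rw [dist_comm] at h4 h5 h6
  have h8 := dist_triangle (fn w.1 (Int.fract t)) (h (PA h η N w (N * η * Int.fract t)))
    (f (PA h η N w (N * η * Int.fract t)))
  linarith

section Pull

variable {k : Type} [Field k] {E E' E'' : Type} [PseudoMetricSpace E] [PseudoMetricSpace E']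
  [PseudoMetricSpace E'']

/-- homotopic maps have the same pullback -/
theorem hpull_of_hp {A : Set E} {B : Set E'} {f g : E → E'} (h : Hp A ∅ B ∅ f g)
    (hf : UMap A B f) (hg : UMap A B g) (n : ℕ) (z : HU k B n) :
    hpull k hf n z = hpull k hg n z := by
  obtain ⟨D, hD, -, h0, h1⟩ := h
  have e0 : pull (c0 k) hD.zero n = pull (c0 k) hf n := pull_congr hD.zero hf h0
  have e1 : pull (c0 k) hD.one n = pull (c0 k) hg n := pull_congr hD.one hg h1
  have e := pull_homotopy (χ := c0 k) hD n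
  rw [e0, e1] at e
  exact (LinearMap.congr_fun e z).symm

/-- pullback and restriction of the target -/
theorem hpull_hres {A : Set E} {B B' : Set E'} {f : E → E'} (hB : B ⊆ B') (hf : UMap A B f)
    (hf' : UMap A B' f) (n : ℕ) (z : HU k B' n) :
    hpull k hf n (hres k hB n z) = hpull k hf' n z := by
  obtain ⟨c, hc, rfl⟩ := H.exists_mk z
  rfl

/-- restriction of the source -/
theorem hres_hpull {A A' : Set E} {B : Set E'} {f : E → E'} (hA : A' ⊆ A) (hf : UMap A B f)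
    (hf' : UMap A' B f) (n : ℕ) (z : HU k B n) :
    hres k hA n (hpull k hf n z) = hpull k hf' n z := by
  obtain ⟨c, hc, rfl⟩ := H.exists_mk z
  rfl

end Pull

/-- **(G0)**: the restriction `Y s' → Y s` factors through `P x₀ x₀ T`, via
`q = qm f ∘ gM T : P x₀ x₀ T → Y (K T)`. -/
theorem gom0 (hρ : 0 < ρ) (hU : UniqSeg M ρ) (h : M ≃ₜ S3) (hx : h x₀ = 1) :
    ∃ ε₀ > 0, ∀ (f : C(M, S3)) (K : ℝ) (hK : 0 ≤ K)
      (hf : ∀ x y, dist (f x) (f y) ≤ K * dist x y), (∀ x, dist (f x) (h x) ≤ ε₀) →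
      ∀ s : ℝ, ∃ (T s' : ℝ) (hT : 0 < T), ∀ s'' : ℝ, s' ≤ s'' → ∃ (hs : s ≤ s'')
        (hKT : K * T ≤ s''), ∀ (k : Type) [Field k] (n : ℕ),
        ∃ α : HU k (P x₀ x₀ T) n →ₗ[k] HU k (Y s) n, ∀ z : HU k (Y s'') n,
          α (hpull k (umap_gM hT) n (hpull k (umap_qm hK hf T) n
            (hres k (Y_mono hKT) n z))) = hres k (Y_mono hs) n z := by
  obtain ⟨ε₀, hε₀, h1⟩ := exists_close hρ hU h hx
  refine ⟨ε₀, hε₀, fun f K hK hf hfh s => ?_⟩
  obtain ⟨T, hT, A, hA, hAc, hcl⟩ := h1 f hfh s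
  refine ⟨T, 4 * max (max s (K * T)) 0, hT, fun s'' hs'' => ?_⟩
  have h0 : 0 ≤ max (max s (K * T)) 0 := le_max_right _ _
  have h2 : max (max s (K * T)) 0 ≤ 4 * max (max s (K * T)) 0 := by linarith
  have hs1 : s ≤ max (max s (K * T)) 0 := (le_max_left _ _).trans (le_max_left _ _)
  have hs2 : K * T ≤ max (max s (K * T)) 0 := (le_max_right _ _).trans (le_max_left _ _)
  refine ⟨hs1.trans (h2.trans hs''), hs2.trans (h2.trans hs''), fun k _ n =>
    ⟨hpull k hA n, fun z => ?_⟩⟩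
  have hC : UMap (Y s) (Y (K * T)) (qm f ∘ (MR.gM T ∘ A)) :=
    (umap_qm hK hf T).comp ((umap_gM hT).comp hA)
  have hc : ContinuousOn (qm f ∘ (MR.gM T ∘ A)) (Y s) := by
    rw [Metric.continuousOn_iff]
    intro w hw ε hε
    obtain ⟨δ, hδ, h3⟩ := hC.uc ε hε
    exact ⟨δ, hδ, fun v hv hvw => h3 v hv w hw hvw⟩
  have hp : Hp (Y s) ∅ (Y (4 * max (max s (K * T)) 0)) ∅ id (qm f ∘ (MR.gM T ∘ A)) :=
    hp_line (isCompact_Y s) continuousOn_id hc (fun w hw => Y_mono hs1 hw)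
      (fun w hw => Y_mono hs2 (hC.mapsX hw)) hcl
  have hid : UMap (Y s) (Y (4 * max (max s (K * T)) 0)) id :=
    IsMap.id_of_subset (Y_mono (hs1.trans h2))
  have hC' : UMap (Y s) (Y (4 * max (max s (K * T)) 0)) (qm f ∘ (MR.gM T ∘ A)) :=
    hC.mono Subset.rfl fun w hw => Y_mono (hs2.trans h2) (hC.mapsX hw)
  have e := hpull_of_hp (k := k) hp hid hC' n (hres k (Y_mono hs'') n z)
  obtain ⟨c, hc, rfl⟩ := H.exists_mk z
  exact e.symm

/-- **(G1)**: the odd cohomology of the family `Y` is ephemeral. -/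
theorem gom1 (hρ : 0 < ρ) (hU : UniqSeg M ρ) (h : M ≃ₜ S3) (hx : h x₀ = 1) :
    ∃ ε₀ > 0, ∀ (f : C(M, S3)) (K : ℝ) (hK : 0 ≤ K)
      (hf : ∀ x y, dist (f x) (f y) ≤ K * dist x y), (∀ x, dist (f x) (h x) ≤ ε₀) →
      ∀ (k : Type) [Field k] {B : ℝ} (hB : 0 ≤ B) (O : OmegaOut M 2 x₀ B k) (s : ℝ),
        ∃ s' : ℝ, ∀ s'' : ℝ, s' ≤ s'' → ∃ (hs : s ≤ s''), ∀ n : ℕ, ¬ 2 ∣ n →
          ∀ z : HU k (Y s'') n, hres k (Y_mono hs) n z = 0 := by
  obtain ⟨ε₀, hε₀, h1⟩ := gom0 hρ hU h hx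
  refine ⟨ε₀, hε₀, fun f K hK hf hfh k _ B hB O s => ?_⟩
  obtain ⟨T, s', hT, h2⟩ := h1 f K hK hf hfh s
  refine ⟨max s' (K * (T + B)), fun s'' hs'' => ?_⟩
  obtain ⟨hs, hKT, h3⟩ := h2 s'' ((le_max_left _ _).trans hs'')
  have hKB : K * (T + B) ≤ s'' := (le_max_right _ _).trans hs''
  refine ⟨hs, fun n hn z => ?_⟩
  obtain ⟨α, hα⟩ := h3 k n
  rw [← hα z]
  have hTB : 0 < T + B := by linarith
  have hTT : P x₀ x₀ T ⊆ P x₀ x₀ (T + B) := P_mono (by linarith)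
  -- the class on `P x₀ x₀ (T + B)`
  have hz := O.zero n hn T hT.le hTT
    (hpull k (umap_gM hTB) n (hpull k (umap_qm hK hf (T + B)) n (hres k (Y_mono hKB) n z)))
  have hp0 : Hp (P x₀ x₀ T) ∅ (XL M (T + B)) ∅ (MR.gM T) (MR.gM (T + B)) := by
    rw [XL_eq hTB.le]
    exact H894.Hp_mono_left (by
      have := H894.g_nat (M := M) (ε := 0) le_rfl hT (by linarith : T ≤ T + B)
      rwa [add_zero] at this) MV337.P_subset_FL
  have hp : Hp (P x₀ x₀ T) ∅ (Y (K * (T + B))) ∅ (qm f ∘ MR.gM T) (qm f ∘ MR.gM (T + B)) :=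
    H901.Hp.comp_left hp0 (umap_qm hK hf (T + B)) (mapsTo_empty _ _)
  have hm0 : UMap (P x₀ x₀ T) (Y (K * (T + B))) (qm f ∘ MR.gM T) :=
    ((umap_qm hK hf T).comp (umap_gM hT)).mono Subset.rfl fun w hw =>
      Y_mono (mul_le_mul_of_nonneg_left (by linarith) hK)
        (((umap_qm hK hf T).comp (umap_gM hT)).mapsX hw)
  have hm1 : UMap (P x₀ x₀ T) (Y (K * (T + B))) (qm f ∘ MR.gM (T + B)) :=
    ((umap_qm hK hf (T + B)).comp (umap_gM hTB)).mono hTT fun w hw =>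
      ((umap_qm hK hf (T + B)).comp (umap_gM hTB)).mapsX (hTT hw)
  have e := hpull_of_hp (k := k) hp hm0 hm1 n (hres k (Y_mono hKB) n z)
  have e2 : hpull k (umap_gM (x₀ := x₀) hT) n (hpull k (umap_qm hK hf T) n (hres k (Y_mono hKT) n z)) = 0 := by
    obtain ⟨c, hc, rfl⟩ := H.exists_mk z
    exact e.trans hz
  rw [e2, map_zero]

end Vale.Agent.P216.H779C
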