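import Vale.Agent.P216.H779C.GomP
import Vale.Agent.P216.H799.Main3
import Vale.Agent.P216.H126L.Lip
import Vale.Agent.P216.H126L.Grp

/-!
# P216, three dimensional sphere, block [GOM]: the data for every `M` homeomorphic to the sphere

`gomM`: a base point, a Lipschitz map `f : M → S3`, and for every field the based Moore loop
classes with `G1P`, `G2P`, `G3P`, `LongX`; `exists_xOut2M`: the contract `XOut2` over every field.
-/

set_option linter.all false

open Set Filter Topology BoundedContinuousFunction Quaternion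

namespace Vale.Agent.P216.H779C

open PS L250 GM Q633 AS B64 H269
open Vale.Agent.P216.LS (UniqSeg)

/-- Lipschitz approximation of maps to the unit quaternions -/
theorem exists_lipS3 {M : Type} [MetricSpace M] [CompactSpace M] (h : C(M, S3)) {ε : ℝ}
    (hε : 0 < ε) : ∃ (f : C(M, S3)) (K : ℝ), 0 < K ∧
      (∀ x y, dist (f x) (f y) ≤ K * dist x y) ∧ ∀ x, dist (f x) (h x) ≤ ε := by
  have hd : ∀ x y : Metric.sphere (0 : EuclideanSpace ℝ (Fin 4)) 1,
      dist (H126L.sphG3 x) (H126L.sphG3 y) = dist x y := fun x y => by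
    rw [Subtype.dist_eq, Subtype.dist_eq]
    exact (Quaternion.linearIsometryEquivTuple.symm.dist_map (x : EuclideanSpace ℝ (Fin 4)) y)
  obtain ⟨g, K, hK, hg⟩ := H126L.exists_lip
    (⟨fun x => H126L.sphG3.symm (h x), H126L.sphG3.symm.continuous.comp h.continuous⟩ :
      C(M, Metric.sphere (0 : EuclideanSpace ℝ (Fin 4)) 1)) hε
  refine ⟨⟨fun x => H126L.sphG3 (g x), H126L.sphG3.continuous.comp g.continuous⟩, K + 1,
    by positivity, fun x y => ?_, fun x => ?_⟩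
  · change dist (H126L.sphG3 (g x)) (H126L.sphG3 (g y)) ≤ _
    rw [hd]
    refine (hK.dist_le_mul x y).trans ?_
    have : (0 : ℝ) ≤ dist x y := dist_nonneg
    linarith
  · change dist (H126L.sphG3 (g x)) (h x) ≤ ε
    have := hg x
    change dist (g x) (H126L.sphG3.symm (h x)) ≤ ε at this
    rwa [← hd, H126L.sphG3.apply_symm_apply] at this

/-- **Block [GOM]** for every `M` homeomorphic to the 3-sphere. -/
theorem gomM (M : Type) [MetricSpace M] [CompactSpace M] {ρ : ℝ} (hρ : 0 < ρ)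
    (hU : UniqSeg M ρ) (he : Nonempty (M ≃ₜ Sph 3)) :
    ∃ (x₀ : M) (f : C(M, S3)) (K : ℝ) (hK : 0 < K)
      (hf : ∀ x y, dist (f x) (f y) ≤ K * dist x y) (B : ℝ), 0 < B ∧
      ∀ (k : Type) [Field k], ∃ O : OmegaOut M 2 x₀ B k,
        G1P k ∧ G2P hK.le hf O ∧ G3P hK.le hf x₀ k ∧ H799.LongX M 2 k := by
  obtain ⟨e⟩ := id he
  let h : M ≃ₜ S3 := e.trans H126L.sphG3
  have hx : h (h.symm 1) = 1 := h.apply_symm_apply 1
  obtain ⟨ε₀, hε₀, h1⟩ := gomP hρ hU h hx
  obtain ⟨f, K, hK, hf, hc⟩ := exists_lipS3 (h : C(M, S3)) hε₀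
  obtain ⟨B, hB, hO⟩ := H799.omega3 M hρ hU he (h.symm 1)
  refine ⟨h.symm 1, f, K, hK, hf, B, hB, fun k _ => ?_⟩
  obtain ⟨O⟩ := hO k
  obtain ⟨h3, h2⟩ := h1 f K hK.le hf hc k
  obtain ⟨hG1, hG2⟩ := h2 hB.le O
  refine ⟨O, hG1, hG2, h3, H799.longX_of_gM hB.le O fun j s hs hjs => ?_⟩
  obtain ⟨-, y, hy⟩ := hG2 j s hs hjs (H799.umap_gM hs)
  exact ⟨_, hy⟩

/-- **The contract `XOut2`** for every `M` homeomorphic to the 3-sphere and every field. -/
theorem exists_xOut2M (M : Type) [MetricSpace M] [CompactSpace M] {ρ : ℝ} (hρ : 0 < ρ)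
    (hU : UniqSeg M ρ) (he : Nonempty (M ≃ₜ Sph 3)) :
    ∃ B : ℝ, 0 < B ∧ ∀ (k : Type) [Field k], Nonempty (H828C.XOut2 M B k) := by
  obtain ⟨x₀, f, K, hK, hf, B, hB, h⟩ := gomM M hρ hU he
  obtain ⟨B', hB', h'⟩ := H799.exists_xOut2 M hρ hU he
  refine ⟨B', hB', fun k _ => h' k ?_⟩
  obtain ⟨O, -, -, -, hL⟩ := h k
  exact hL

end Vale.Agent.P216.H779C
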