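import Vale.Agent.P216.H779C.Gom1
import Vale.Agent.P216.H311.Gom2
import Vale.Agent.P216.H269.KOfG

/-!
# P216, three dimensional sphere, block [GOM]: the three outputs `G1P`, `G2P`, `G3P`
-/

set_option linter.all false

open Set Filter Topology BoundedContinuousFunction Quaternion

namespace Vale.Agent.P216.H779C

open PS L250 GM Q633 AS B64 H269
open Vale.Agent.P216.LS (UniqSeg)

variable {M : Type} [MetricSpace M] [CompactSpace M] {ρ : ℝ} {x₀ : M}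

/-- **Block [GOM]**: `G1P`, `G2P` and `G3P` for every Lipschitz map `f` close to the
homeomorphism `h`. -/
theorem gomP (hρ : 0 < ρ) (hU : UniqSeg M ρ) (h : M ≃ₜ S3) (hx : h x₀ = 1) :
    ∃ ε₀ > 0, ∀ (f : C(M, S3)) (K : ℝ) (hK : 0 ≤ K)
      (hf : ∀ x y, dist (f x) (f y) ≤ K * dist x y), (∀ x, dist (f x) (h x) ≤ ε₀) →
      ∀ (k : Type) [Field k], G3P hK hf x₀ k ∧
        ∀ {B : ℝ} (hB : 0 ≤ B) (O : OmegaOut M 2 x₀ B k), G1P k ∧ G2P hK hf O := by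
  obtain ⟨ε₁, hε₁, h1⟩ := gom1 hρ hU h hx
  obtain ⟨ε₂, hε₂, h2⟩ := H311.gom2 hρ hU h hx
  obtain ⟨ε₃, hε₃, h3⟩ := gom0 hρ hU h hx
  refine ⟨min ε₁ (min ε₂ ε₃), lt_min hε₁ (lt_min hε₂ hε₃), fun f K hK hf hc k _ => ⟨?_, ?_⟩⟩
  · intro s
    obtain ⟨T, s', hT, h4⟩ := h3 f K hK hf
      (fun x => (hc x).trans ((min_le_right _ _).trans (min_le_right _ _))) s
    obtain ⟨hs, hKT, h5⟩ := h4 s' le_rfl
    refine ⟨s', hs, T, hT, hKT, fun hg q z hz => ?_⟩
    obtain ⟨α, hα⟩ := h5 k q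
    rw [← hα z, hz, map_zero]
  · intro B hB O
    refine ⟨fun s => ?_, ?_⟩
    · obtain ⟨s', h4⟩ := h1 f K hK hf (fun x => (hc x).trans (min_le_left _ _)) k hB O s
      obtain ⟨hs, h5⟩ := h4 s' le_rfl
      exact ⟨s', hs, fun q hq z => h5 q (by omega) z⟩
    · intro j s hs hjs hg
      exact h2 f K hK hf (fun x => (hc x).trans ((min_le_right _ _).trans (min_le_left _ _)))
        k hB O j s hs hjs hg

end Vale.Agent.P216.H779C
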