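import Vale.Agent.P216.Q633.Quat
import Vale.Agent.P216.H539.MooreD

/-!
# P216, three dimensional sphere, block [GOM]: the polygon map `Y s → P x₀ x₀ (N η)`

`PA h η N w`: the polygonal Moore loop through the points `h⁻¹ (w (i / N))`, each piece of
duration `η`.
-/

set_option linter.all false

open Set Filter Topology BoundedContinuousFunction Quaternion

namespace Vale.Agent.P216.H779C

open PS L250 GM Q633
open Vale.Agent.P216.LS (UniqSeg seg)
open Vale.Agent.P216.MV337 (pg cs cs_zero cs_succ cs_const pg_of_nonpos pg_of_ge dist_pg_le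
  FL FL_subset_PP)
open Vale.Agent.P216.MR (Good continuousOn_mo_pg pg_at)

variable {M : Type} [MetricSpace M] [CompactSpace M] {ρ η : ℝ} {x₀ : M}

/-- the polygon map -/
noncomputable def PA (h : M ≃ₜ S3) (η : ℝ) (N : ℕ) (w : EY) : ℝ →ᵇ M :=
  mo (pg (fun i => h.symm (fn w.1 ((i : ℝ) / N))) (fun _ => η) N)

/-- a common modulus of continuity of `h⁻¹ ∘ w`, `w ∈ Y s` -/
theorem exists_mesh (h : M ≃ₜ S3) (hη : 0 < η) (s : ℝ) : ∃ N₀ : ℕ, 0 < N₀ ∧ ∀ N : ℕ, N₀ ≤ N →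
    ∀ w ∈ Y s, ∀ a b : ℝ, |a - b| ≤ 1 / N →
      dist (h.symm (fn w.1 a)) (h.symm (fn w.1 b)) ≤ η := by
  have hc : UniformContinuous h.symm := CompactSpace.uniformContinuous_of_continuous h.symm.continuous
  rw [Metric.uniformContinuous_iff] at hc
  obtain ⟨δ, hδ, hc⟩ := hc η hη
  have hs0 : 0 ≤ max s 0 := le_max_right _ _
  obtain ⟨N₀, hN₀⟩ := exists_nat_gt ((max s 0 / δ) ^ 2)
  have hN0 : (0 : ℝ) < N₀ := lt_of_le_of_lt (sq_nonneg _) hN₀
  refine ⟨N₀, by exact_mod_cast hN0, fun N hN w hw a b hab => (hc ?_).le⟩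
  have hNN : (N₀ : ℝ) ≤ N := by exact_mod_cast hN
  have hN1 : (0 : ℝ) < N := hN0.trans_le hNN
  refine (dist_fn_le_of_mem (M := S3) (s := max s 0) hw hs0 a b).trans_lt ?_
  have h1 : max s 0 ^ 2 < N * δ ^ 2 := by
    have h2 : (max s 0 / δ) ^ 2 < N := hN₀.trans_le hNN
    rwa [div_pow, div_lt_iff₀ (by positivity)] at h2
  have h4 : (max s 0 * Real.sqrt |a - b|) ^ 2 < δ ^ 2 := by
    rw [mul_pow, Real.sq_sqrt (abs_nonneg _)]
    calc max s 0 ^ 2 * |a - b| ≤ max s 0 ^ 2 * (1 / N) :=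
          mul_le_mul_of_nonneg_left hab (sq_nonneg _)
      _ < δ ^ 2 := by
        rw [mul_one_div, div_lt_iff₀ hN1]
        exact h1.trans_eq (mul_comm _ _)
  exact lt_of_pow_lt_pow_left₀ 2 hδ.le h4

section

variable (hU : UniqSeg M ρ) (h : M ≃ₜ S3) (hx : h x₀ = 1) (hη : 0 < η) (hηρ : η < ρ)
  {N : ℕ} (hN : 0 < N) {w : EY}
  (hm : ∀ a b : ℝ, |a - b| ≤ 1 / N → dist (h.symm (fn w.1 a)) (h.symm (fn w.1 b)) ≤ η)

include hN hη hηρ hm

omit [CompactSpace M] in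
theorem good_PA : Good ρ (N * η) N (fun i => h.symm (fn w.1 ((i : ℝ) / N))) (fun _ => η) := by
  have hN' : (0 : ℝ) < N := by exact_mod_cast hN
  have hst : ∀ i < N, dist (h.symm (fn w.1 ((i : ℝ) / N)))
      (h.symm (fn w.1 (((i + 1 : ℕ) : ℝ) / N))) ≤ η := by
    intro i _
    refine hm _ _ (le_of_eq ?_)
    have : (i : ℝ) / N - ((i + 1 : ℕ) : ℝ) / N = -(1 / N) := by
      push_cast
      ring
    rw [this, abs_neg, abs_of_pos (by positivity)]
  refine ⟨fun _ _ => hη, fun i hi => (hst i hi).trans_lt hηρ, hst, (cs_const η N).le, ?_⟩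
  have h1 := fn_periodic w.1 0
  rw [zero_add] at h1
  rw [div_self hN'.ne', h1, Nat.cast_zero, zero_div]

include hU hx

theorem PA_apply (u : ℝ) :
    PA h η N w u = pg (fun i => h.symm (fn w.1 ((i : ℝ) / N))) (fun _ => η) N u :=
  (good_PA h hη hηρ hN hm).mo_apply hU u

theorem PA_mem : PA h η N w ∈ P x₀ x₀ (N * η) := by
  have hg := good_PA h hη hηρ hN hm
  have h0 : h.symm (fn w.1 (((0 : ℕ) : ℝ) / N)) = x₀ := by
    rw [Nat.cast_zero, zero_div, w.2, ← hx, h.symm_apply_apply]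
  refine mo_mem (hg.lip hU) (fun u hu => ?_) fun u hu => ?_
  · rw [pg_of_nonpos hg.pos hu, h0]
  · rw [pg_of_ge hg.pos (hg.tot.trans hu), hg.cl, h0]

theorem dist_PA {l : ℝ} (hl : l ∈ Icc (0 : ℝ) 1) :
    dist (PA h η N w (N * η * l)) (h.symm (fn w.1 l)) ≤ 2 * η := by
  have hg := good_PA h hη hηρ hN hm
  have hN' : (0 : ℝ) < N := by exact_mod_cast hN
  rw [PA_apply hU h hx hη hηρ hN hm]
  -- the piece
  obtain ⟨n, a, hn, ha, hla⟩ : ∃ (n : ℕ) (a : ℝ), n < N ∧ a ∈ Icc (0 : ℝ) 1 ∧ N * l = n + a := by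
    rcases hl.2.eq_or_lt with h1 | h1
    · refine ⟨N - 1, 1, Nat.sub_lt hN one_pos, ⟨zero_le_one, le_rfl⟩, ?_⟩
      rw [Nat.cast_pred hN, h1]
      ring
    · have h2 : 0 ≤ N * l := mul_nonneg hN'.le hl.1
      refine ⟨⌊(N : ℝ) * l⌋₊, N * l - ⌊(N : ℝ) * l⌋₊, ?_, ⟨?_, ?_⟩, by ring⟩
      · rw [Nat.floor_lt h2]
        calc (N : ℝ) * l < N * 1 := mul_lt_mul_of_pos_left h1 hN'
          _ = N := mul_one _
      · linarith [Nat.floor_le h2]
      · linarith [Nat.lt_floor_add_one ((N : ℝ) * l)]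
  have e : (N : ℝ) * η * l = cs (fun _ => η) n + a * η := by
    rw [cs_const]
    calc (N : ℝ) * η * l = η * (N * l) := by ring
      _ = _ := by rw [hla]; ring
  rw [e, pg_at (Δ := fun _ => η) hg.pos hn ha]
  have h3 : dist (h.symm (fn w.1 ((n : ℝ) / N))) (h.symm (fn w.1 (((n + 1 : ℕ) : ℝ) / N))) ≤ η :=
    hg.le n hn
  have h4 : dist (h.symm (fn w.1 ((n : ℝ) / N)))
      (seg (h.symm (fn w.1 ((n : ℝ) / N))) (h.symm (fn w.1 (((n + 1 : ℕ) : ℝ) / N))) a) ≤ η := by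
    rw [LS.dist_left_seg hU (h3.trans_lt hηρ) ha]
    calc _ ≤ 1 * η := mul_le_mul ha.2 h3 dist_nonneg zero_le_one
      _ = η := one_mul η
  have h5 : dist (h.symm (fn w.1 ((n : ℝ) / N))) (h.symm (fn w.1 l)) ≤ η := by
    refine hm _ _ ?_
    have h6 : (n : ℝ) / N - l = -(a / N) := by
      have h7 : l = (n + a) / N := by rw [← hla]; field_simp
      rw [h7]
      ring
    rw [h6, abs_neg, abs_of_nonneg (div_nonneg ha.1 hN'.le)]
    exact div_le_div_of_nonneg_right ha.2 hN'.le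
  rw [dist_comm] at h4
  refine (dist_triangle _ _ _).trans ((add_le_add h4 h5).trans_eq (by ring))

end

/-- **The polygon map.** -/
theorem exists_poly (hU : UniqSeg M ρ) (h : M ≃ₜ S3) (hx : h x₀ = 1) (hη : 0 < η) (hηρ : η < ρ)
    (s : ℝ) : ∃ N₀ : ℕ, 0 < N₀ ∧ ∀ N : ℕ, N₀ ≤ N → ContinuousOn (PA h η N) (Y s) ∧
      (∀ w ∈ Y s, PA h η N w ∈ P x₀ x₀ (N * η)) ∧
      ∀ w ∈ Y s, ∀ l ∈ Icc (0 : ℝ) 1,
        dist (PA h η N w (N * η * l)) (h.symm (fn w.1 l)) ≤ 2 * η := by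
  obtain ⟨N₀, hN₀, hm⟩ := exists_mesh h hη s
  refine ⟨N₀, hN₀, fun N hN => ?_⟩
  have hN' : 0 < N := hN₀.trans_le hN
  refine ⟨?_, fun w hw => PA_mem hU h hx hη hηρ hN' (hm N hN w hw), fun w hw l hl =>
    dist_PA hU h hx hη hηρ hN' (hm N hN w hw) hl⟩
  refine continuousOn_mo_pg (T := N * η) hU (by positivity) (fun i _ => ?_)
    (fun _ _ => continuousOn_const) fun w hw => good_PA h hη hηρ hN' (hm N hN w hw)
  refine (h.symm.continuous.comp ?_).continuousOn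
  exact (ContinuousEvalConst.continuous_eval_const (((i : ℝ) / N : ℝ) : AddCircle (1 : ℝ))).comp
    continuous_subtype_val

end Vale.Agent.P216.H779C
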